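import Vale.Agent.P198.H372.Final

/-!
# P198: Cannon's conjecture, with the conjugation at infinity

`G` is a group generated by a finite set `S` and `Γ` its Cayley graph (Mathlib's
`SimpleGraph.mulCayley`). The geodesic triangles of `Γ` are `δ`-thin and the boundary of `Γ` is
homeomorphic to the 2-sphere. Then `G` acts by isometries on hyperbolic 3-space, properly,
cocompactly and with finite kernel. The orbit maps extend to a homeomorphism of the boundary onto
the Riemann sphere at infinity, which conjugates the action of `G` on the boundary to an action by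
Moebius and anti-Moebius maps. Orbit maps are quasi-isometries. If `G` is torsion-free, it is the
fundamental group of a closed hyperbolic 3-manifold.
-/

namespace Vale.Agent.Results.P198.BoundaryConjugation

open Metric Set Topology SimpleGraph Vale.Agent.P198.H372
open P198H (H3)

theorem result (G : Type) [Group G] (S : Finset G) (hS : Subgroup.closure (S : Set G) = ⊤)
    (Γ : SimpleGraph G) (hΓ : Γ = mulCayley (S : Set G)) (δ : ℝ) (hδ : ThinTriangles Γ δ)
    (hb : Nonempty (Boundary Γ 1 ≃ₜ sphere (0 : EuclideanSpace ℝ (Fin 3)) 1)) :
    ∃ ρ : G →* (H3 ≃ᵢ H3),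
      -- (1) Cannon's conjecture: a geometric action with finite kernel
      (Finite ρ.ker ∧
        (∀ K : Set H3, IsCompact K → {g : G | (ρ g '' K ∩ K).Nonempty}.Finite) ∧
        ∃ K : Set H3, IsCompact K ∧ ⋃ g : G, ρ g '' K = univ) ∧
      -- (2) the orbit maps extend to a homeomorphism of the boundary onto the sphere at infinity;
      -- it conjugates the action of `G` to an action by Moebius and anti-Moebius maps
      (∃ Φ : Boundary Γ 1 ≃ₜ OnePoint ℂ, Extends Γ ρ Φ ∧ ConjugatesToMoebius Γ Φ) ∧
      -- (3) orbit maps are quasi-isometries from the Cayley graph to hyperbolic 3-space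
      QuasiIsometric Γ ρ ∧
      -- (4) a torsion-free `G` is the fundamental group of a closed hyperbolic 3-manifold
      ((∀ (g : G) (n : ℕ), 0 < n → g ^ n = 1 → g = 1) →
        ∃ (M : Type) (_ : MetricSpace M), ClosedHyperbolic M ∧
          (∀ m : M, Nonempty (FundamentalGroup M m ≃* G)) ∧
          ∃ π : H3 → M, IsCoveringMap π ∧ ∀ x y : H3, π x = π y ↔ ∃ g : G, ρ g x = y) := by
  subst hΓ
  exact final G S hS δ hδ hb

end Vale.Agent.Results.P198.BoundaryConjugation
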