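import Vale.Agent.P198.H.Final1

/-! # P198: for a hyperbolic group with boundary a 2-sphere the combinatorial 2-moduli of the
boundary are bounded -/

namespace Vale.Agent.Results.P198.BoundedModulus

open Vale.Agent.P198.H

/-- If `G` is a hyperbolic group (finite generating set `S`, thin geodesic triangles) whose boundary
is homeomorphic to the 2-sphere, then for all disjoint closed sets `A`, `B` of the boundary the
combinatorial 2-moduli of the continua joining `A` to `B`, with respect to the covers of the
boundary by the shadows of the `r`-balls about the elements of length `k`, are bounded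
independently of `k`. -/
theorem result (G : Type) [Group G] (S : Finset G) (hS : Subgroup.closure (S : Set G) = ⊤)
    (δ : ℕ) (hδ : Thin S δ)
    (hZ : Nonempty (Bdry S ≃ₜ Metric.sphere (0 : EuclideanSpace ℝ (Fin 3)) 1))
    (r : ℕ) (A B : Set (Bdry S)) (hA : IsClosed A) (hB : IsClosed B) (hAB : Disjoint A B) :
    ⨆ k : ℕ, shadowMod S r k (joining A B) < ⊤ :=
  stage1 G S hS δ hδ hZ r A B hA hB hAB

end Vale.Agent.Results.P198.BoundedModulus
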