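import Vale.Agent.P198.CH.Close

/-! # P198: Cannon's conjecture -/

namespace Vale.Agent.Results.P198.CannonConjecture

open Vale.Agent.P198.H P198H

/-- Cannon's conjecture. Let `G` be a hyperbolic group: `S` is a finite generating set and the
geodesic triangles of the Cayley graph are `δ`-thin. If the boundary of `G` is homeomorphic to the
2-sphere, then `G` has a proper cocompact isometric action on hyperbolic 3-space with finite
kernel. -/
theorem result (G : Type) [Group G] (S : Finset G) (hS : Subgroup.closure (S : Set G) = ⊤)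
    (δ : ℕ) (hδ : Thin S δ)
    (hZ : Nonempty (Bdry S ≃ₜ Metric.sphere (0 : EuclideanSpace ℝ (Fin 3)) 1)) :
    ∃ ρ : G →* (H3 ≃ᵢ H3), Finite ρ.ker ∧
      (∀ K : Set H3, IsCompact K → {g : G | ((ρ g) '' K ∩ K).Nonempty}.Finite) ∧
      ∃ K : Set H3, IsCompact K ∧ ⋃ g : G, (ρ g) '' K = Set.univ :=
  P198C137.stage2 G S hS δ hδ hZ

end Vale.Agent.Results.P198.CannonConjecture
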