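import Vale.Agent.P198.H483.Closed

/-! # P198: Cannon's conjecture, with the closed hyperbolic 3-manifold of a torsion-free group -/

namespace Vale.Agent.Results.P198.ClosedManifold

open Vale.Agent.P198.H P198H Metric

/-- Cannon's conjecture, with the closed hyperbolic 3-manifold of a torsion-free group. Let `G` be
a hyperbolic group: `S` is a finite generating set and the geodesic triangles of the Cayley graph
are `δ`-thin. If the boundary of `G` is homeomorphic to the 2-sphere, then `G` has a proper
cocompact isometric action on hyperbolic 3-space with finite kernel. If moreover `G` is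
torsion-free, then the action is faithful and there are a compact connected metric space `M` and a
surjective covering map from hyperbolic 3-space to `M`, whose fibres are the orbits of `G` and
which is a local isometry, and `G` is isomorphic to the fundamental group of `M` at every point:
`M` is a closed hyperbolic 3-manifold with fundamental group `G`. -/
theorem result (G : Type) [Group G] (S : Finset G) (hS : Subgroup.closure (S : Set G) = ⊤)
    (δ : ℕ) (hδ : Thin S δ)
    (hZ : Nonempty (Bdry S ≃ₜ Metric.sphere (0 : EuclideanSpace ℝ (Fin 3)) 1)) :
    ∃ ρ : G →* (H3 ≃ᵢ H3), Finite ρ.ker ∧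
      (∀ K : Set H3, IsCompact K → {g : G | ((ρ g) '' K ∩ K).Nonempty}.Finite) ∧
      (∃ K : Set H3, IsCompact K ∧ ⋃ g : G, (ρ g) '' K = Set.univ) ∧
      ((∀ g : G, IsOfFinOrder g → g = 1) →
        Function.Injective ρ ∧
        ∃ (M : Type) (_ : MetricSpace M) (p : H3 → M),
          CompactSpace M ∧ ConnectedSpace M ∧ IsCoveringMap p ∧ Function.Surjective p ∧
          (∀ x y, p x = p y ↔ ∃ g : G, ρ g y = x) ∧
          (∀ x, ∃ r > 0, (∀ y ∈ ball x r, ∀ z ∈ ball x r, dist (p y) (p z) = dist y z) ∧
            p '' ball x r = ball (p x) r) ∧
          ∀ m : M, Nonempty (FundamentalGroup M m ≃* G)) :=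
  Vale.Agent.P198.H483.closed_manifold G S hS δ hδ hZ

end Vale.Agent.Results.P198.ClosedManifold
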